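import Crest.Agent.N250.Re.Basic

/-!
# Row 250, Prelude bridge (helper37): `H` is the level set mean curvature
-/

set_option autoImplicit false
open MeasureTheory Set Filter Topology
open scoped ContDiff InnerProductSpace
open Crest.GeometryTopology.MCF

noncomputable section

namespace Crest.Agent.N250.Br

theorem trace_eq (L : E →L[ℝ] E) : LinearMap.trace ℝ E L.toLinearMap = ∑ a, L (ee a) a := by
  rw [LinearMap.trace_eq_matrix_trace ℝ (EuclideanSpace.basisFun (Fin 3) ℝ).toBasis]
  simp [Matrix.trace, LinearMap.toMatrix_apply]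

theorem H_eq {F : Mv} (hF : F.Reg) {W : Set ST} {φ : ST → ℝ} (h : F.Loc W φ) {p : ST}
    (hp : p ∈ W) (hM : p ∈ F.M) : F.H p = levelSetMeanCurv φ p.1 p.2 := by
  set N : ST → E := fun q => ‖gradX φ q.1 q.2‖⁻¹ • gradX φ q.1 q.2 with hN
  have hW : W ∈ 𝓝 p := h.isOpen.mem_nhds hp
  have hd : DifferentiableAt ℝ N p := (h.sm_n.contDiffAt hW).differentiableAt (by simp)
  set L : E →L[ℝ] E := (fderiv ℝ N p).comp (ContinuousLinearMap.inl ℝ E ℝ) with hL
  have hL1 : fderiv ℝ (fun y => N (y, p.2)) p.1 = L :=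
    (HasFDerivAt.comp (g := N) (f := fun y : E => ((y, p.2) : ST)) p.1 hd.hasFDerivAt
      (hasFDerivAt_prodMk_left p.1 p.2)).fderiv
  have hNp : N p = F.n p := (h.n_eq p hp hM).symm
  -- the normal component of the derivative vanishes
  have hn : ∀ w, ⟪F.n p, fderiv ℝ N p w⟫_ℝ = 0 := by
    intro w
    have h1 : (fun q => ⟪N q, N q⟫_ℝ) =ᶠ[𝓝 p] fun _ => (1 : ℝ) := by
      filter_upwards [hW] with q hq
      rw [real_inner_self_eq_norm_sq, hN]
      simp only [norm_smul, norm_inv, norm_norm, inv_mul_cancel₀ (h.norm_pos hq).ne', one_pow]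
    have h2 := (hd.hasFDerivAt.inner ℝ hd.hasFDerivAt).fderiv
    rw [h1.fderiv_eq, fderiv_const_apply] at h2
    have h3 := congr($h2 w)
    simp only [zero_apply, ContinuousLinearMap.comp_apply,
      ContinuousLinearMap.prod_apply, fderivInnerCLM_apply, hNp] at h3
    rw [real_inner_comm (F.n p)] at h3
    linarith
  have hA : ∀ a, F.A a a p = L (ee a) a - F.n p a * L (F.n p) a := by
    intro a
    have hda : HasFDerivAt (fun q => N q a) ((EuclideanSpace.proj a).comp (fderiv ℝ N p)) p :=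
      (EuclideanSpace.proj (𝕜 := ℝ) a).hasFDerivAt.comp p hd.hasFDerivAt
    have e : F.nu a =ᶠ[𝓝[F.M] p] fun q => N q a := by
      filter_upwards [mem_nhdsWithin_of_mem_nhds hW, self_mem_nhdsWithin] with q hq hqM
      simp only [Mv.nu, hN, h.n_eq q hq hqM]
    change F.td (F.nu a) p (F.PL p (ee a), 0) = _
    rw [hF.td_ext hM hda.differentiableAt e (hF.tg_PL hM _), hda.fderiv]
    have : ((F.PL p (ee a), 0) : ST) = (ee a, 0) - F.n p a • (F.n p, 0) := by
      simp [Mv.PL, inner_ee]
    rw [this]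
    simp only [map_sub, map_smul, hL, smul_eq_mul]
    rfl
  have hs : ∑ a, F.n p a * L (F.n p) a = 0 := by
    rw [← inner_eq_sum]
    exact hn _
  have : levelSetMeanCurv φ p.1 p.2 = LinearMap.trace ℝ E L.toLinearMap := by
    rw [← hL1]; rfl
  rw [this, trace_eq, Mv.H, Finset.sum_apply]
  simp only [hA, Finset.sum_sub_distrib, hs, sub_zero]

end Crest.Agent.N250.Br

end
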