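import Crest.Agent.N250.Br.Stm
import Crest.Agent.N250.Br.Hm
import Crest.Agent.N250.Re.Comm
import Crest.Agent.N250.T.Gau
import Crest.Agent.N250.GB.Conn

/-!
# Row 250, Prelude bridge (helper37): `InitStmt`, `EntryS`
-/

set_option autoImplicit false
open MeasureTheory Set Filter Topology
open scoped ContDiff InnerProductSpace
open Crest.GeometryTopology.MCF

noncomputable section

namespace Crest.Agent.N250.Br

/-- the moving surface given by a global defining function -/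
def ofPhi (Φ : ST → ℝ) (I : Set ℝ) : Mv :=
  ⟨{p | p.2 ∈ I ∧ Φ p = 0}, fun q => ‖gradX Φ q.1 q.2‖⁻¹ • gradX Φ q.1 q.2,
    fun q => -dT Φ q / ‖gradX Φ q.1 q.2‖⟩

theorem ofPhi_mcf {Φ : ST → ℝ} {I : Set ℝ} (hI : IsOpen I) (hΦ : ContDiffOn ℝ ∞ Φ (univ ×ˢ I))
    (h : ∀ p : ST, p.2 ∈ I → Φ p = 0 → gradX Φ p.1 p.2 ≠ 0 ∧
      dT Φ p = ‖gradX Φ p.1 p.2‖ * levelSetMeanCurv Φ p.1 p.2) : (ofPhi Φ I).IsMCF := by
  have hO : IsOpen (univ ×ˢ I : Set ST) := isOpen_univ.prod hI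
  have hW : IsOpen ((univ ×ˢ I : Set ST) ∩ (fun q : ST => gradX Φ q.1 q.2) ⁻¹' {0}ᶜ) :=
    (contDiffOn_gradX hO hΦ).continuousOn.isOpen_inter_preimage hO isOpen_compl_singleton
  have hL : (ofPhi Φ I).Loc ((univ ×ˢ I : Set ST) ∩ (fun q : ST => gradX Φ q.1 q.2) ⁻¹' {0}ᶜ) Φ :=
    ⟨hW, hΦ.mono inter_subset_left, fun q hq => hq.2,
      fun q hq => ⟨fun h => h.2, fun h => ⟨hq.1.2, h⟩⟩, fun _ _ _ => rfl, fun _ _ _ => rfl⟩
  have hm : ∀ p ∈ (ofPhi Φ I).M,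
      p ∈ (univ ×ˢ I : Set ST) ∩ (fun q : ST => gradX Φ q.1 q.2) ⁻¹' {0}ᶜ :=
    fun p hp => ⟨⟨trivial, hp.1⟩, (h p hp.1 hp.2).1⟩
  have hR : (ofPhi Φ I).Reg := fun p hp => ⟨_, Φ, hm p hp, hL⟩
  refine ⟨hR, fun p hp => ?_⟩
  rw [H_eq hR hL (hm p hp) hp]
  have h1 := (h p hp.1 hp.2)
  have h2 : ‖gradX Φ p.1 p.2‖ ≠ 0 := norm_ne_zero_iff.2 h1.1
  change -dT Φ p / ‖gradX Φ p.1 p.2‖ = _
  rw [h1.2]
  field_simp

theorem ofPhi_proper {Φ : ST → ℝ} {I : Set ℝ} (hI : IsOpen I)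
    (hΦ : ContinuousOn Φ (univ ×ˢ I)) : (ofPhi Φ I).Proper (univ ×ˢ I) := by
  intro p hp hq
  refine ⟨hq.2, ?_⟩
  have hc : ContinuousAt Φ p := hΦ.continuousAt ((isOpen_univ.prod hI).mem_nhds hq)
  have := hc.continuousWithinAt.mem_closure hp (t := {0}) (fun q hq => hq.2)
  simpa using this

theorem box_one {F : Mv} (hF : F.Reg) {p : ST} (hp : p ∈ F.M) : F.box (fun _ => 1) p = 0 := by
  have h1 : F.Dt (fun _ => 1) p = 0 := hF.td_const hp 1 (hF.tg_vel hp)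
  have h2 : ∀ a, F.D a (F.D a fun _ => 1) p = 0 := fun a => by
    rw [Mv.D_congr' hp (f := F.D a fun _ => 1) (g := fun _ => 0) 
      (fun q hq => hF.td_const hq 1 (hF.tg_PL hq _))]
    exact hF.td_const hp 0 (hF.tg_PL hp _)
  simp only [Mv.box, Pi.sub_apply, h1, N222.Pre.lap, Finset.sum_apply]
  simp [h2]

/-- flows whose tracks over compact sets of times are compact -/
def CT (F : Mv) (I : Set ℝ) : Prop := ∀ K, IsCompact K → K ⊆ I → IsCompact {p | p ∈ F.M ∧ p.2 ∈ K}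

theorem CT.sl {F : Mv} {I : Set ℝ} (h : CT F I) {t : ℝ} (ht : t ∈ I) : IsCompact (F.sl t) := by
  have := (h {t} isCompact_singleton (singleton_subset_iff.2 ht)).image continuous_fst
  convert this using 1
  ext x
  constructor
  · intro hx
    exact ⟨(x, t), ⟨hx, rfl⟩, rfl⟩
  · rintro ⟨⟨y, s⟩, ⟨h1, h2⟩, rfl⟩
    obtain rfl : s = t := h2
    exact h1

theorem CT.fin (hM : MuFinS) {F : Mv} (hF : F.Reg) {I : Set ℝ} (h : CT F I) {t : ℝ} (ht : t ∈ I) :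
    IsFiniteMeasure (F.mu t) := by
  obtain ⟨C, hC⟩ := hM F hF _ (h {t} isCompact_singleton (singleton_subset_iff.2 ht))
    (fun _ hp => hp.1)
  obtain ⟨r, hr⟩ := (h.sl ht).isBounded.subset_ball (0 : E)
  refine ⟨?_⟩
  have h1 : F.mu t univ = F.mu t (F.sl t) := by
    rw [Mv.mu, Measure.restrict_apply_univ, Measure.restrict_apply_self]
  rw [h1]
  refine lt_of_le_of_lt (le_trans (measure_mono ?_) (hC t 0 (max r 1) (by positivity)))
    ENNReal.ofReal_lt_top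
  intro x hx
  exact ⟨⟨hx, rfl⟩, Metric.ball_subset_ball (le_max_left _ _) (hr hx)⟩

/-- monotonicity for compact flows -/
theorem CT.mono (hW : WMonoS) {F : Mv} (hF : F.IsMCF) {a b : ℝ} (h : CT F (Ioo a b)) (X : ST)
    {t₀ t : ℝ} (h0 : a < t₀) (h1 : t₀ ≤ t) (h2 : t < b) (h3 : t < X.2) :
    F.Fs t X.1 (X.2 - t) ≤ F.Fs t₀ X.1 (X.2 - t₀) := by
  obtain ⟨a', ha1, ha2⟩ := exists_between h0
  obtain ⟨b', hb1, hb2⟩ := exists_between (lt_min h2 h3)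
  have hb3 : b' < b := hb2.trans_le (min_le_left _ _)
  have hb4 : b' < X.2 := hb2.trans_le (min_le_right _ _)
  have hd := hW F hF X (fun _ => 1) (Ioo a' b') isOpen_Ioo (fun s hs => hs.2.trans hb4)
    contDiffOn_const ⟨_, h (Icc a' b') isCompact_Icc (Icc_subset_Ioo ha1 hb3), fun _ hp => hp.1,
      fun p hp hq hn => (hn ⟨hp, Ioo_subset_Icc_self hq⟩).elim⟩
  have anti : AntitoneOn (fun s => ∫ x, (1 : ℝ) * Phi X (x, s) ∂F.mu s) (Ioo a' b') := by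
    refine antitoneOn_of_deriv_nonpos (convex_Ioo _ _)
      (fun s hs => (hd s hs).continuousAt.continuousWithinAt)
      (fun s hs => (hd s (interior_subset hs)).differentiableAt.differentiableWithinAt) ?_
    intro s hs
    have hs' := interior_subset hs
    rw [(hd s hs').deriv]
    refine integral_nonpos_of_ae ?_
    have hc := h.sl (t := s) ⟨ha1.trans hs'.1, hs'.2.trans hb3⟩
    filter_upwards [ae_restrict_mem (μ := (μHE[2] : Measure E)) hc.measurableSet] with x hx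
    rw [box_one hF.1 hx]
    have := Gau.gau_pos X.1 (s := X.2 - s) (by linarith [hs'.2]) x
    have h4 : 0 ≤ F.dev X (x, s) ^ 2 * Phi X (x, s) := mul_nonneg (sq_nonneg _) this.le
    simp only [Pi.zero_apply]
    linarith
  have := anti ⟨ha2, h1.trans_lt hb1⟩ ⟨ha2.trans_le h1, hb1⟩ h1
  simpa only [one_mul, Phi, Mv.Fs] using this

/-- area ratios of compact flows, away from the initial time -/
theorem CT.ar (hM : MuFinS) (hW : WMonoS) {F : Mv} (hF : F.IsMCF) {a b c : ℝ}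
    (h : CT F (Ioo a b)) (hac : a < c) (hcb : c < b) : ∃ Λ : ℝ, 0 ≤ Λ ∧ ∀ t ∈ Ioo c b, ∀ y r, 0 < r →
      F.mu t (Metric.ball y r) ≤ ENNReal.ofReal (Λ * r ^ 2) := by
  obtain ⟨t₀, h0, h1⟩ := exists_between hac
  have hd : 0 < c - t₀ := sub_pos.2 h1
  have := h.fin hM hF.1 (t := t₀) ⟨h0, h1.trans hcb⟩
  refine ⟨4 * Real.pi * Real.exp (1 / 4) * ((F.mu t₀).real univ * (4 * Real.pi * (c - t₀))⁻¹),
    by positivity, fun t ht y r hr => Gau.ball_le y hr ?_⟩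
  have := h.fin hM hF.1 (t := t) ⟨hac.trans ht.1, ht.2⟩
  have hb : ∀ s, 0 < s → ∀ x, gau y s x ≤ (4 * Real.pi * s)⁻¹ := fun s hs x => by
    refine mul_le_of_le_one_right (by positivity) (Real.exp_le_one_iff.2 ?_)
    exact div_nonpos_of_nonpos_of_nonneg (neg_nonpos.2 (sq_nonneg _)) (by positivity)
  have hi : ∀ (μ : Measure E) [IsFiniteMeasure μ] (s : ℝ), 0 < s → Integrable (gau y s) μ :=
    fun μ _ s hs => Integrable.of_bound (Gau.gau_cont y s).aestronglyMeasurable (4 * Real.pi * s)⁻¹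
      (Eventually.of_forall fun x => by
        rw [Real.norm_of_nonneg (Gau.gau_pos y hs x).le]; exact hb s hs x)
  have hr2 : 0 < r ^ 2 := by positivity
  rw [← ofReal_integral_eq_lintegral_ofReal (hi _ _ hr2)
    (Eventually.of_forall fun x => (Gau.gau_pos y hr2 x).le)]
  refine ENNReal.ofReal_le_ofReal ?_
  have k := h.mono hW hF (y, t + r ^ 2) h0 (h1.trans ht.1).le ht.2 (by simpa using hr2)
  simp only [add_sub_cancel_left, Mv.Fs] at k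
  refine k.trans ?_
  have hs : c - t₀ ≤ t + r ^ 2 - t₀ := by linarith [ht.1]
  have hs0 : 0 < t + r ^ 2 - t₀ := hd.trans_le hs
  calc ∫ x, gau y (t + r ^ 2 - t₀) x ∂F.mu t₀ ≤ ∫ _, (4 * Real.pi * (c - t₀))⁻¹ ∂F.mu t₀ := by
        refine integral_mono (hi _ _ hs0) (integrable_const _) fun x => (hb _ hs0 x).trans ?_
        exact inv_anti₀ (by positivity) (mul_le_mul_of_nonneg_left hs (by positivity))
    _ = _ := by rw [integral_const, smul_eq_mul]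

/-- the shifted flow on `(c, T - σ)` -/
theorem entry (hO : OrS) (hM : MuFinS) (hW : WMonoS) {M : ℝ → Set E} {T : ℝ}
    (h : IsSmoothMCF M T) (σ : ℝ) {c b : ℝ} (hc : -σ < c) (hcb : c < b) (hb : σ + b = T) :
    ∃ (F : Mv) (Λ R : ℝ), Fl F (Ioo c b) Λ ∧ (∀ t ∈ Ioo c b, F.sl t = M (σ + t)) ∧
      ∀ p ∈ F.M, ‖p.1‖ ≤ R := by
  obtain ⟨Φ, hΦ, hm⟩ := hO M T h
  set Ψ : ST → ℝ := fun p => Φ (p.1, σ + p.2) with hΨ
  have hin : ∀ s ∈ Ioo (-σ) b, σ + s ∈ Ioo 0 T := fun s hs =>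
    ⟨by linarith [hs.1], by linarith [hs.2]⟩
  have hs : ContDiffOn ℝ ∞ Ψ (univ ×ˢ Ioo (-σ) b) :=
    hΦ.comp (by fun_prop) fun p hp => ⟨trivial, hin _ hp.2⟩
  have hz : ∀ p : ST, p.2 ∈ Ioo (-σ) b → (p.1 ∈ M (σ + p.2) ↔ Ψ p = 0) := fun p hp =>
    (hm (p.1, σ + p.2) (hin _ hp)).1
  have he : ∀ p : ST, p.2 ∈ Ioo (-σ) b → Ψ p = 0 → gradX Ψ p.1 p.2 ≠ 0 ∧
      dT Ψ p = ‖gradX Ψ p.1 p.2‖ * levelSetMeanCurv Ψ p.1 p.2 := fun p hp h0 => by
    obtain ⟨h1, h2⟩ := (hm (p.1, σ + p.2) (hin _ hp)).2 ((hz p hp).2 h0)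
    refine ⟨h1, ?_⟩
    have : dT Ψ p = dT Φ (p.1, σ + p.2) := deriv_comp_const_add (fun s => Φ (p.1, s)) σ p.2
    rw [this, h2]
    rfl
  have hsub : Ioo c b ⊆ Ioo (-σ) b := Ioo_subset_Ioo_left hc.le
  have hCT : CT (ofPhi Ψ (Ioo (-σ) b)) (Ioo (-σ) b) := by
    intro K hK hKI
    have h1 := GB.mcf_track_compact h (K := (fun s => σ + s) '' K) (hK.image (by fun_prop))
      (by rintro _ ⟨s, hs, rfl⟩; exact Ioo_subset_Ico_self (hin _ (hKI hs)))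
    convert h1.image (f := fun p : ST => ((p.1, p.2 - σ) : ST)) (by fun_prop) using 1
    ext p
    constructor
    · rintro ⟨h2, h3⟩
      exact ⟨(p.1, σ + p.2), ⟨⟨_, h3, rfl⟩, (hz p h2.1).2 h2.2⟩, by simp⟩
    · rintro ⟨⟨x, _⟩, ⟨⟨s, hs, rfl⟩, h3⟩, rfl⟩
      simp only [add_sub_cancel_left]
      exact ⟨⟨hKI hs, (hz (x, s) (hKI hs)).1 h3⟩, hs⟩
  obtain ⟨Λ, -, hΛ⟩ := hCT.ar hM hW (ofPhi_mcf isOpen_Ioo hs he) hc hcb
  obtain ⟨R, hR⟩ := h.2.1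
  have hs' : ContDiffOn ℝ ∞ Ψ (univ ×ˢ Ioo c b) := hs.mono (prod_mono le_rfl hsub)
  refine ⟨ofPhi Ψ (Ioo c b), Λ, R, ⟨ofPhi_mcf isOpen_Ioo hs' fun p hp => he p (hsub hp),
    fun p hp => hp.1, ofPhi_proper isOpen_Ioo hs'.continuousOn, fun t y r hr => ?_⟩,
    fun t ht => ?_, fun p hp => ?_⟩
  · by_cases ht : t ∈ Ioo c b
    · have : (ofPhi Ψ (Ioo c b)).sl t = (ofPhi Ψ (Ioo (-σ) b)).sl t := by
        ext x
        exact ⟨fun h => ⟨hsub ht, h.2⟩, fun h => ⟨ht, h.2⟩⟩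
      rw [Mv.mu, this]
      exact hΛ t ht y r hr
    · have : (ofPhi Ψ (Ioo c b)).sl t = ∅ := eq_empty_of_forall_notMem fun x h => ht h.1
      rw [Mv.mu, this]
      simp
  · ext x
    exact ⟨fun h => (hz (x, t) (hsub ht)).2 h.2, fun h => ⟨ht, (hz (x, t) (hsub ht)).1 h⟩⟩
  · have := hR _ (Ioo_subset_Ico_self (hin _ (hsub hp.1))) ((hz p (hsub hp.1)).2 hp.2)
    simpa using this

theorem entryS_of (hO : OrS) (hM : MuFinS) (hW : WMonoS) : EntryS := by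
  intro M T h t₀ ht
  simpa only [zero_add] using entry hO hM hW h 0 (by simpa using ht.1) ht.2 (zero_add T)

theorem init_of (hO : OrS) (hM : MuFinS) (hW : WMonoS) (hL : LgbFlowS) : InitStmt := by
  intro M T hT h _ hconn
  obtain ⟨F, Λ, R, h1, h2, h3⟩ := entry hO hM hW h T (c := -(T / 2)) (b := 0) (by linarith)
    (by linarith) (add_zero T)
  obtain ⟨G, hG⟩ := hL F _ _ Λ h1 ⟨R, h3⟩ fun t ht => by
    rw [h2 t ht]
    exact GB.mcf_connected h hconn ⟨by linarith [ht.1], by linarith [ht.2]⟩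
  refine ⟨F, Λ, G, ⟨by linarith, h1, ⟨R, h3⟩, hG⟩, fun x t ht => ?_⟩
  rw [← h2 t ht]
  rfl

end Crest.Agent.N250.Br

end
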