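import Crest.Agent.N250.Defs

/-!
# Row 250, Prelude bridge (helper37): scaling of area measures, uniform weak convergence
-/

set_option autoImplicit false
open MeasureTheory Set Filter Topology
open scoped ContDiff InnerProductSpace Pointwise
open Crest.GeometryTopology.MCF

noncomputable section

namespace Crest.Agent.N250.Br

/-- weak convergence against smooth test functions is uniform on compact families of continuous
test functions -/
theorem unif_of_weak {α : Type} {l : Filter α} (μ : α → Measure E) (ν : Measure E)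
    (hμ : ∀ᶠ k in l, IsFiniteMeasureOnCompacts (μ k)) [IsFiniteMeasureOnCompacts ν]
    (h : ∀ f : E → ℝ, ContDiff ℝ ∞ f → HasCompactSupport f →
      Tendsto (fun k => ∫ y, f y ∂μ k) l (𝓝 (∫ y, f y ∂ν)))
    (g : ℝ × E → ℝ) (hg : Continuous g) {K : Set ℝ} (hK : IsCompact K) {R : ℝ} (hR0 : 0 < R)
    (hR : ∀ s ∈ K, ∀ y, R ≤ ‖y‖ → g (s, y) = 0) {ε : ℝ} (hε : 0 < ε) :
    ∀ᶠ k in l, ∀ s ∈ K, |∫ y, g (s, y) ∂μ k - ∫ y, g (s, y) ∂ν| < ε := by
  let χ : ContDiffBump (0 : E) := ⟨R, R + 1, hR0, by linarith⟩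
  have hχ1 : ∀ y : E, ‖y‖ ≤ R → χ y = 1 := fun y hy =>
    χ.one_of_mem_closedBall (by simpa using hy)
  set m := ∫ y, χ y ∂ν with hm
  have hm0 : 0 ≤ m := integral_nonneg fun y => χ.nonneg
  have hχ : ∀ᶠ k in l, ∫ y, χ y ∂μ k < m + 1 :=
    (h χ χ.contDiff χ.hasCompactSupport).eventually (gt_mem_nhds (by linarith))
  set η := ε / (8 * (m + 1)) with hη
  have hη0 : 0 < η := by positivity
  have hcs : ∀ f : E → ℝ, (∀ y, R ≤ ‖y‖ → f y = 0) → HasCompactSupport f := fun f hf =>
    HasCompactSupport.intro (isCompact_closedBall (0 : E) R) fun y hy =>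
      hf y (by simp at hy; exact hy.le)
  -- comparison of integrals
  have cmp : ∀ (ρ : Measure E) [IsFiniteMeasureOnCompacts ρ] (u v : E → ℝ), Continuous u →
      Continuous v → (∀ y, R ≤ ‖y‖ → u y = 0) → (∀ y, R ≤ ‖y‖ → v y = 0) →
      (∀ y, ‖y‖ ≤ R → |u y - v y| ≤ 2 * η) →
      |∫ y, u y ∂ρ - ∫ y, v y ∂ρ| ≤ 2 * η * ∫ y, χ y ∂ρ := by
    intro ρ _ u v hu hv hu0 hv0 huv
    have iu : Integrable u ρ := hu.integrable_of_hasCompactSupport (hcs u hu0)
    have iv : Integrable v ρ := hv.integrable_of_hasCompactSupport (hcs v hv0)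
    have iχ : Integrable χ ρ := χ.continuous.integrable_of_hasCompactSupport χ.hasCompactSupport
    rw [← integral_sub iu iv, ← integral_const_mul]
    refine (abs_integral_le_integral_abs).trans (integral_mono (iu.sub iv).abs (iχ.const_mul _) ?_)
    intro y
    by_cases hy : ‖y‖ ≤ R
    · simpa [hχ1 y hy] using huv y hy
    · have hy' : R ≤ ‖y‖ := (not_le.1 hy).le
      simp only [hu0 y hy', hv0 y hy', sub_zero, abs_zero]
      exact mul_nonneg (by positivity) χ.nonneg
  refine IsCompact.induction_on hK (p := fun U => ∀ᶠ k in l, ∀ s ∈ U, s ∈ K →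
      |∫ y, g (s, y) ∂μ k - ∫ y, g (s, y) ∂ν| < ε) ?_ ?_ ?_ ?_ |>.mono fun k hk s hs => hk s hs hs
  · simp
  · intro U V hUV hV
    exact hV.mono fun k hk s hs => hk s (hUV hs)
  · intro U V hU hV
    filter_upwards [hU, hV] with k h1 h2 s hs
    exact hs.elim (h1 s) (h2 s)
  · intro s0 hs0
    have hc : ∀ s, Continuous fun y : E => g (s, y) := fun s => hg.comp (by fun_prop)
    obtain ⟨w, hw, hw1, hw2⟩ := (hc s0).exists_contDiff_approx (n := ⊤) (ε := fun _ => η)
      continuous_const (fun _ => hη0)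
    have hw0 : ∀ y, R ≤ ‖y‖ → w y = 0 := fun y hy => by
      by_contra hn
      exact hw2 hn (hR s0 hs0 y hy)
    have hnear : ∀ᶠ s in 𝓝 s0, ∀ y ∈ Metric.closedBall (0 : E) R, |g (s, y) - g (s0, y)| < η := by
      refine (isCompact_closedBall (0 : E) R).eventually_forall_of_forall_eventually
        (P := fun s y => |g (s, y) - g (s0, y)| < η) fun y _ => ?_
      have hcont : Continuous fun z : ℝ × E => |g (z.1, z.2) - g (s0, z.2)| := by fun_prop
      exact hcont.continuousAt.eventually (gt_mem_nhds (by simpa using hη0))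
    refine ⟨_, mem_nhdsWithin_of_mem_nhds hnear, ?_⟩
    have hw3 := (Metric.tendsto_nhds.1 (h w hw (hcs w hw0))) (ε / 2) (by positivity)
    filter_upwards [hμ, hχ, hw3] with k hk h1 h2 s hs hsK
    have huv : ∀ y, ‖y‖ ≤ R → |g (s, y) - w y| ≤ 2 * η := fun y hy => by
      have a1 := hs y (by simpa using hy)
      have a2 := hw1 y
      rw [Real.dist_eq] at a2
      rw [abs_lt] at a1 a2
      rw [abs_le]
      constructor <;> linarith [a1.1, a1.2, a2.1, a2.2]
    have b1 := cmp (μ k) _ w (hc s) hw.continuous (hR s hsK) hw0 huv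
    have b2 := cmp ν _ w (hc s) hw.continuous (hR s hsK) hw0 huv
    rw [Real.dist_eq] at h2
    have b3 : 2 * η * ∫ y, χ y ∂μ k ≤ 2 * η * (m + 1) :=
      mul_le_mul_of_nonneg_left h1.le (by positivity)
    have b4 : 2 * η * m ≤ 2 * η * (m + 1) := mul_le_mul_of_nonneg_left (by linarith) (by positivity)
    have b5 : 2 * η * (m + 1) = ε / 4 := by rw [hη]; field_simp; ring
    rw [abs_lt] at h2 ⊢
    rw [abs_le] at b1 b2
    constructor <;> linarith [b1.1, b1.2, b2.1, b2.2, h2.1, h2.2]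

/-- the normalising constant -/
def cH : ℝ := ((Measure.addHaarScalarFactor (volume : Measure (EuclideanSpace ℝ (Fin 2)))
  μH[((2 : ℕ) : ℝ)] : NNReal) : ℝ)

theorem cH_pos : 0 < cH := by
  have := Measure.addHaarScalarFactor_volume_hausdorffMeasure_ne_zero 2
  unfold cH
  positivity

theorem int_muHE (A : Set E) (f : E → ℝ) :
    ∫ y, f y ∂((μHE[2] : Measure E).restrict A) = cH * ∫ y, f y ∂(areaMeasure A) := by
  rw [Measure.euclideanHausdorffMeasure_def, Measure.restrict_smul, integral_smul_nnreal_measure]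
  simp only [areaMeasure, cH, Nat.cast_ofNat]
  rfl

/-- scaling of the area measure -/
theorem int_smul (A : Set E) (f : E → ℝ) {c : ℝ} (hc : 0 < c) :
    ∫ y, f y ∂((μHE[2] : Measure E).restrict ((fun z => c • z) '' A)) =
      c ^ 2 * ∫ y, f (c • y) ∂((μHE[2] : Measure E).restrict A) := by
  let e : E ≃ᵐ E := (Homeomorph.smulOfNeZero c hc.ne').toMeasurableEquiv
  have he : ∀ y, e y = c • y := fun _ => rfl
  have h1 : (μHE[2] : Measure E) = Measure.map e ((‖c‖₊ ^ 2) • (μHE[2] : Measure E)) := by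
    ext s hs
    rw [MeasurableEquiv.map_apply, Measure.smul_apply,
      ← Measure.euclideanHausdorffMeasure_smul₀ 2 hc.ne']
    congr 1
    exact (image_preimage_eq s e.surjective).symm
  have h2 : e ⁻¹' ((fun z => c • z) '' A) = A := preimage_image_eq A e.injective
  conv_lhs => rw [h1, MeasurableEquiv.restrict_map, integral_map_equiv, h2, Measure.restrict_smul,
    integral_smul_nnreal_measure]
  simp only [he, NNReal.smul_def, NNReal.coe_pow, coe_nnnorm, Real.norm_eq_abs, sq_abs, smul_eq_mul]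

theorem rescaled_eq (M : ℝ → Set E) (T : ℝ) (x₀ : E) {lam s : ℝ} (hl : 0 < lam) (hs : s < 0) :
    rescaled M T x₀ lam s = (fun z => √(-s) • z) ''
      {y | (rmap (x₀, T) (y, 2 * Real.log lam - Real.log (-s))).1 ∈
        M (rmap (x₀, T) (y, 2 * Real.log lam - Real.log (-s))).2} := by
  have hs' : 0 < -s := by linarith
  have hq : 0 < √(-s) := Real.sqrt_pos.2 hs'
  have e1 : Real.exp (-(2 * Real.log lam - Real.log (-s))) = -s / lam ^ 2 := by
    rw [neg_sub, Real.exp_sub, Real.exp_log hs', two_mul, Real.exp_add, Real.exp_log hl, sq]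
  have e2 : Real.exp (-(2 * Real.log lam - Real.log (-s)) / 2) = √(-s) / lam := by
    rw [Real.exp_half, e1, Real.sqrt_div' _ (by positivity), Real.sqrt_sq hl.le]
  have e3 : T - -s / lam ^ 2 = T + s / lam ^ 2 := by ring
  simp only [rmap, e1, e2, e3, rescaled]
  ext z
  constructor
  · rintro ⟨y, hy, rfl⟩
    refine ⟨(√(-s))⁻¹ • lam • (y - x₀), ?_, ?_⟩
    · have : x₀ + (√(-s) / lam) • (√(-s))⁻¹ • lam • (y - x₀) = y := by
        rw [smul_smul, smul_smul]
        have : √(-s) / lam * (√(-s))⁻¹ * lam = 1 := by field_simp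
        rw [this]; simp
      simpa only [mem_ofPred_eq, this] using hy
    · simp only [smul_smul]
      congr 1
      field_simp
  · rintro ⟨y, hy, rfl⟩
    refine ⟨_, hy, ?_⟩
    simp only [add_sub_cancel_left, smul_smul]
    congr 1
    field_simp

/-- **final scaling step**: weak convergence of the rescaled flow gives the Prelude statement -/
theorem resc_of_weak (M : ℝ → Set E) (T : ℝ) (x₀ : E) (S : Set E) (N : ℝ → Set E)
    (hN : ∀ᶠ τ in atTop, N τ = {y | (rmap (x₀, T) (y, τ)).1 ∈ M (rmap (x₀, T) (y, τ)).2})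
    (hμ : ∀ᶠ τ in atTop, IsFiniteMeasureOnCompacts ((μHE[2] : Measure E).restrict (N τ)))
    (hS : IsFiniteMeasureOnCompacts ((μHE[2] : Measure E).restrict S))
    (h : ∀ f : E → ℝ, ContDiff ℝ ∞ f → HasCompactSupport f →
      Tendsto (fun τ => ∫ y, f y ∂((μHE[2] : Measure E).restrict (N τ))) atTop
        (𝓝 (∫ y, f y ∂((μHE[2] : Measure E).restrict S)))) :
    RescalingsConvergeTo M T x₀ S := by
  intro f hf hfc a b hab hb ε hε
  obtain ⟨R, hR⟩ := hfc.isCompact.isBounded.subset_ball (0 : E)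
  have hb' : 0 < √(-b) := Real.sqrt_pos.2 (by linarith)
  have hR' : 0 < (|R| + 1) / √(-b) := by positivity
  have key := unif_of_weak (l := atTop) _ _ hμ h (fun p => -p.1 * f (√(-p.1) • p.2)) (by fun_prop)
    (isCompact_Icc (a := a) (b := b)) hR' (fun s hs y hy => by
      have : f (√(-s) • y) = 0 := by
        by_contra hn
        have h1 := hR (subset_tsupport f hn)
        rw [mem_ball_zero_iff, norm_smul, Real.norm_of_nonneg (Real.sqrt_nonneg _)] at h1
        have h2 : √(-b) ≤ √(-s) := Real.sqrt_le_sqrt (by linarith [hs.2])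
        rw [div_le_iff₀ hb'] at hy
        have h3 : ‖y‖ * √(-b) ≤ ‖y‖ * √(-s) := mul_le_mul_of_nonneg_left h2 (norm_nonneg _)
        linarith [le_abs_self R]
      simp [this]) (mul_pos cH_pos hε)
  obtain ⟨τ0, hτ0⟩ := eventually_atTop.1 (key.and hN)
  refine ⟨Real.exp ((τ0 + Real.log (-a)) / 2), fun lam hlam s hs => ?_⟩
  have hl : 0 < lam := lt_of_lt_of_le (Real.exp_pos _) hlam
  have hs0 : s < 0 := lt_of_le_of_lt hs.2 hb
  have hτ : τ0 ≤ 2 * Real.log lam - Real.log (-s) := by
    have h1 : (τ0 + Real.log (-a)) / 2 ≤ Real.log lam := (Real.le_log_iff_exp_le hl).2 hlam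
    have h2 : Real.log (-s) ≤ Real.log (-a) := Real.log_le_log (by linarith) (by linarith [hs.1])
    linarith
  obtain ⟨k1, k2⟩ := hτ0 _ hτ
  have k3 := k1 s hs
  have hq : 0 < √(-s) := Real.sqrt_pos.2 (by linarith)
  have hq2 : √(-s) ^ 2 = -s := Real.sq_sqrt (by linarith)
  simp only [integral_const_mul] at k3
  rw [← hq2] at k3
  have r1 := int_smul (N (2 * Real.log lam - Real.log (-s))) f hq
  have r2 := int_smul S f hq
  rw [hq2] at r1 r2
  rw [rescaled_eq M T x₀ hl hs0, ← k2]
  rw [int_muHE] at r1 r2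
  have : cH * |(∫ y, f y ∂areaMeasure ((fun z => √(-s) • z) ''
      N (2 * Real.log lam - Real.log (-s)))) - ∫ y, f y ∂areaMeasure ((fun z => √(-s) • z) '' S)|
      < cH * ε := by
    rw [← abs_of_pos cH_pos, ← abs_mul, mul_sub, r1, r2, abs_of_pos cH_pos]
    simpa only [hq2] using k3
  exact lt_of_mul_lt_mul_left this cH_pos.le

end Crest.Agent.N250.Br

end
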