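import Crest.Agent.N250.Br.Stm
import Crest.Agent.N250.Br.Sc
import Crest.Agent.N250.Br.Hm

/-!
# Row 250, Prelude bridge (helper37): `OutStmt`, `ExitS`
-/

set_option autoImplicit false
open MeasureTheory Set Filter Topology
open scoped ContDiff InnerProductSpace Pointwise
open Crest.GeometryTopology.MCF

noncomputable section

namespace Crest.Agent.N250.Br

theorem isSelfShrinker {S : Mv} (hS : S.IsShr) (hne : (S.sl 0).Nonempty) :
    IsSelfShrinker (S.sl 0) := by
  have hc : Continuous fun y : E => ((y, 0) : ST) := by fun_prop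
  refine ⟨hne, hS.closed.preimage hc, fun x hx => ?_⟩
  obtain ⟨W, φ, hW, h⟩ := hS.reg (x, 0) hx
  refine ⟨(fun y : E => ((y, 0) : ST)) ⁻¹' W, fun y => φ (y, 0), h.isOpen.preimage hc, hW,
    h.sm.comp (by fun_prop) (fun _ hy => hy), fun y hy => h.ne (y, 0) hy,
    fun y hy => h.mem (y, 0) hy, fun y hy hyS => ?_⟩
  have h1 := hS.eq (y, 0) hyS
  have h2 := H_eq hS.reg h hy hyS
  have h3 := h.n_eq (y, 0) hy hyS
  simp only [Mv.shr, Mv.xn, sub_zero, h2, h3] at h1
  exact sub_eq_zero.1 h1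

theorem unresc_sl {S : Mv} (hS : S.Static) {s : ℝ} (hs : s < 0) :
    S.unresc.sl s = (fun z => √(-s) • z) '' S.sl 0 := by
  have hq : 0 < √(-s) := Real.sqrt_pos.2 (by linarith)
  ext x
  simp only [Mv.sl, Mv.unresc, umap, mem_ofPred_eq, hs, true_and, mem_image]
  rw [hS.mem]
  constructor
  · intro h
    exact ⟨_, h, by rw [smul_smul, mul_inv_cancel₀ hq.ne', one_smul]⟩
  · rintro ⟨z, hz, rfl⟩
    rwa [smul_smul, inv_mul_cancel₀ hq.ne', one_smul]

theorem mem_pp (F : Mv) (x₀ x : E) (lam s : ℝ) :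
    (x, s) ∈ ((F.para (x₀, 0) 1).para 0 lam).M ↔ (x₀ + lam⁻¹ • x, s / lam ^ 2) ∈ F.M := by
  simp [Mv.para]

theorem pp_sl {M : ℝ → Set E} {T : ℝ} {F : Mv} (hR : Rep F M T) (x₀ : E) {lam s : ℝ}
    (hl : 0 < lam) (hs : s / lam ^ 2 ∈ Ioo (-(T / 2)) 0) :
    ((F.para (x₀, 0) 1).para 0 lam).sl s = rescaled M T x₀ lam s := by
  ext x
  simp only [Mv.sl, mem_ofPred_eq, mem_pp, hR _ _ hs, rescaled, mem_image]
  constructor
  · intro h
    refine ⟨_, h, ?_⟩
    rw [add_sub_cancel_left, smul_smul, mul_inv_cancel₀ hl.ne', one_smul]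
  · rintro ⟨y, hy, rfl⟩
    rwa [smul_smul, inv_mul_cancel₀ hl.ne', one_smul, add_sub_cancel]

/-- the hypothesis is sphere avoidance (with `0 ≤ r`) -/
theorem out_of (hAv : ∀ F : Mv, F.IsMCF → ∀ (y : E) (r t₁ t₂ : ℝ), 0 ≤ r →
    F.Proper (Metric.ball y r ×ˢ Icc t₁ t₂) → (∀ x ∈ F.sl t₁, r ≤ dist x y) →
    ∀ t ∈ Icc t₁ t₂, ∀ x ∈ F.sl t, r ^ 2 - 4 * (t - t₁) ≤ dist x y ^ 2) : OutStmt := by
  intro M T x₀ F S Λ hT hF hR hx hS hw ⟨l, hl, hc⟩
  refine ⟨isSelfShrinker hS ?_, ?_⟩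
  · by_contra hne
    rw [not_nonempty_iff_eq_empty] at hne
    have hemp : ∀ p, p ∉ S.unresc.M := fun p hp => by
      have : (umap p).1 ∈ S.sl 0 := (hS.st.mem _ _).1 hp.2
      rw [hne] at this
      exact this
    have hK : IsCompact (Metric.closedBall (0 : E) 3 ×ˢ ({-1} : Set ℝ)) :=
      (isCompact_closedBall _ _).prod isCompact_singleton
    have hev : ∀ᶠ lam in (l : Filter ℝ), Disjoint (Metric.closedBall (0 : E) 3 ×ˢ ({-1} : Set ℝ))
        ((F.para (x₀, 0) 1).para 0 lam).M := by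
      refine IsCompact.induction_on hK (p := fun U => ∀ᶠ lam in (l : Filter ℝ),
        Disjoint U ((F.para (x₀, 0) 1).para 0 lam).M) (by simp) ?_ ?_ ?_
      · intro U V hUV hV
        exact hV.mono fun k hk => hk.mono_left hUV
      · intro U V hU hV
        filter_upwards [hU, hV] with k h1 h2
        exact disjoint_union_left.2 ⟨h1, h2⟩
      · intro p hp
        obtain ⟨U, hU, h⟩ := hc.away p ⟨trivial, by
          have : p.2 = -1 := hp.2
          simp [this]⟩ (hemp p)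
        exact ⟨U, mem_nhdsWithin_of_mem_nhds hU, h⟩
    obtain ⟨lam, h1, h2⟩ := (hev.and (hl (eventually_gt_atTop (1 + 2 / T)))).exists
    have h2' : 1 + 2 / T < lam := h2
    have hT2 : 0 < 2 / T := by positivity
    have hl0 : 0 < lam := by linarith
    have hu : 0 < 1 / lam ^ 2 := by positivity
    have hu2 : 1 / lam ^ 2 < T / 2 := by
      rw [div_lt_iff₀ (by positivity)]
      have a1 : 2 / T < lam ^ 2 := by nlinarith
      rw [div_lt_iff₀ hT] at a1
      linarith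
    obtain ⟨t, ht, y, hy, hd⟩ := hx (1 / lam) (by positivity) (1 / lam ^ 2) hu
    have ht' : t - T ∈ Ioo (-(T / 2)) 0 := ⟨by linarith [ht.1], by linarith [ht.2]⟩
    have hyF : y ∈ F.sl (t - T) := (hR y _ ht').2 (by simpa using hy)
    have key := hAv F hF.mcf x₀ (3 / lam) (-(1 / lam ^ 2)) (t - T) (by positivity)
      (fun p hp hq => hF.proper p hp ⟨trivial, by linarith [hq.2.1], by linarith [hq.2.2, ht.2]⟩)
      (fun x hx => by
        by_contra hn
        rw [not_le] at hn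
        have h1' := Set.disjoint_left.1 h1
        refine @h1' (lam • (x - x₀), -1) ⟨?_, rfl⟩ ?_
        · rw [mem_closedBall_zero_iff, norm_smul, Real.norm_of_nonneg hl0.le, ← dist_eq_norm]
          rw [lt_div_iff₀ hl0] at hn
          linarith
        · rw [mem_pp, smul_smul, inv_mul_cancel₀ hl0.ne', one_smul, add_sub_cancel, neg_div]
          exact hx)
      (t - T) ⟨by linarith [ht.1], le_rfl⟩ y hyF
    have e1 : (3 / lam) ^ 2 = 9 * (1 / lam ^ 2) := by field_simp; norm_num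
    have e2 : dist y x₀ ^ 2 < (1 / lam) ^ 2 := pow_lt_pow_left₀ hd dist_nonneg (by norm_num)
    have e3 : (1 / lam) ^ 2 = 1 / lam ^ 2 := by field_simp
    linarith [ht.2]
  · intro f hf hfc a b hab hb ε hε
    obtain ⟨L, hL⟩ := hw f hf hfc a b hab hb (cH * ε) (mul_pos cH_pos hε)
    refine ⟨max L (1 + 2 * (-a) / T), fun lam hlam s hs => ?_⟩
    have ha : 0 < 2 * (-a) / T := div_pos (by linarith) hT
    have h2 : 1 + 2 * (-a) / T ≤ lam := (le_max_right _ _).trans hlam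
    have hl0 : 0 < lam := by linarith
    have hs0 : s < 0 := hs.2.trans_lt hb
    have hs' : s / lam ^ 2 ∈ Ioo (-(T / 2)) 0 := by
      refine ⟨?_, div_neg_of_neg_of_pos hs0 (by positivity)⟩
      rw [lt_div_iff₀ (by positivity)]
      have a1 : 2 * (-a) / T < lam ^ 2 := by nlinarith
      rw [div_lt_iff₀ hT] at a1
      linarith [hs.1]
    have k := hL lam ((le_max_left _ _).trans hlam) s hs
    rw [Mv.mu, Mv.mu, pp_sl hR x₀ hl0 hs', unresc_sl hS.st hs0, int_muHE, int_muHE, ← mul_sub,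
      abs_mul, abs_of_pos cH_pos] at k
    exact lt_of_mul_lt_mul_left k cH_pos.le

theorem finite_of_AR {F : Mv} {Λ : ℝ} (h : F.AR Λ) (t : ℝ) : IsFiniteMeasureOnCompacts (F.mu t) :=
  ⟨fun K hK => by
    obtain ⟨r, hr⟩ := hK.isBounded.subset_ball (0 : E)
    refine lt_of_le_of_lt (measure_mono (hr.trans (Metric.ball_subset_ball (le_max_left r 1)))) ?_
    exact lt_of_le_of_lt (h t 0 _ (lt_of_lt_of_le one_pos (le_max_right _ _))) ENNReal.ofReal_lt_top⟩

theorem exitS_holds : ExitS := by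
  intro M t₀ T Λ x₀ F S ht hF hΛ hS hSΛ hne h
  have hev : ∀ᶠ τ : ℝ in atTop, T - Real.exp (-τ) ∈ Ioo t₀ T := by
    have h1 : Tendsto (fun τ : ℝ => Real.exp (-τ)) atTop (𝓝 0) := Real.tendsto_exp_neg_atTop_nhds_zero
    filter_upwards [h1.eventually (gt_mem_nhds (sub_pos.2 ht))] with τ hτ
    exact ⟨by linarith, by linarith [Real.exp_pos (-τ)]⟩
  refine ⟨isSelfShrinker hS hne, resc_of_weak M T x₀ _ (fun τ => (F.resc (x₀, T)).sl τ) ?_ ?_
    (finite_of_AR hSΛ 0) h⟩
  · filter_upwards [hev] with τ hτ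
    ext y
    have := hF _ hτ
    simp only [mem_ofPred_eq, rmap, ← this]
    rfl
  · refine Eventually.of_forall fun τ => ⟨fun K hK => ?_⟩
    have hc : 0 < Real.exp (-τ / 2) := Real.exp_pos _
    let e : E ≃ₜ E := (Homeomorph.smulOfNeZero _ hc.ne').trans (Homeomorph.addLeft x₀)
    have he : ∀ y, e y = x₀ + Real.exp (-τ / 2) • y := fun _ => rfl
    have := finite_of_AR hΛ (T - Real.exp (-τ))
    have h1 := (hK.image e.continuous).measure_lt_top (μ := F.mu (T - Real.exp (-τ)))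
    rw [Mv.mu, Measure.restrict_apply (hK.image e.continuous).measurableSet] at h1
    rw [Measure.restrict_apply hK.measurableSet]
    have h2 : e '' K ∩ F.sl (T - Real.exp (-τ)) =
        x₀ +ᵥ (Real.exp (-τ / 2) • (K ∩ (F.resc (x₀, T)).sl τ)) := by
      ext z
      constructor
      · rintro ⟨⟨y, hy, rfl⟩, hz⟩
        exact ⟨_, ⟨y, ⟨hy, hz⟩, rfl⟩, rfl⟩
      · rintro ⟨_, ⟨y, ⟨hy, hz⟩, rfl⟩, rfl⟩
        exact ⟨⟨y, hy, rfl⟩, hz⟩
    rw [h2, measure_vadd, Measure.euclideanHausdorffMeasure_smul₀ 2 hc.ne'] at h1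
    by_contra hn
    rw [not_lt, top_le_iff] at hn
    rw [hn, ENNReal.smul_def, smul_eq_mul, ENNReal.mul_top (by simp)] at h1
    exact lt_irrefl _ h1

end Crest.Agent.N250.Br

end
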