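import Crest.Agent.N250.Br.Out
import Crest.Agent.N250.MP.Avoid

/-! Row 250 (helper37): `OutStmt`, closed. -/

namespace Crest.Agent.N250.Br

theorem outStmt : OutStmt := out_of MP.avoidS_holds

end Crest.Agent.N250.Br
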