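import Crest.Agent.N250.Master
import Crest.Agent.N250.T.Stm

/-!
# Row 250, Prelude bridge (helper37): the two inputs of `InitStmt`
-/

set_option autoImplicit false
open MeasureTheory Set Filter Topology
open scoped ContDiff InnerProductSpace
open Crest.GeometryTopology.MCF

noncomputable section

namespace Crest.Agent.N250.Br

/-- one global defining function of the flow -/
def OrS : Prop := ∀ (M : ℝ → Set E) (T : ℝ), IsSmoothMCF M T → ∃ Φ : ST → ℝ,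
  ContDiffOn ℝ ∞ Φ (univ ×ˢ Ioo 0 T) ∧ ∀ p : ST, p.2 ∈ Ioo 0 T → (p.1 ∈ M p.2 ↔ Φ p = 0) ∧
    (p.1 ∈ M p.2 → gradX Φ p.1 p.2 ≠ 0 ∧
      dT Φ p = ‖gradX Φ p.1 p.2‖ * levelSetMeanCurv Φ p.1 p.2)

/-- local Gauss–Bonnet for bounded flows with connected slices -/
def LgbFlowS : Prop := ∀ (F : Mv) (a b Λ : ℝ), Fl F (Ioo a b) Λ →
  (∃ ρ : ℝ, ∀ p ∈ F.M, ‖p.1‖ ≤ ρ) → (∀ t ∈ Ioo a b, IsConnected (F.sl t)) → ∃ G, LGB F G

end Crest.Agent.N250.Br

end
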